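import Vale.Agent.P236KE.Y

/-!
# P236JF / Defs : the structure maps modulo `(3, v_1 ^ 3)` as lists of terms
-/

noncomputable section

namespace Vale.Agent.P236JF

open MvPolynomial Vale.Agent.P236EL Vale.Agent.P236KE

/-- the diagonal of `t_1` modulo `(3, v_1 ^ 3)` -/
def dj1 : List DT :=
  [⟨1, (0, 0, 0, 0), (0, 0, 0, 0), (1, 0, 0, 0)⟩, ⟨1, (0, 0, 0, 0), (1, 0, 0, 0), (0, 0, 0, 0)⟩]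

/-- the diagonal of `t_2` modulo `(3, v_1 ^ 3)` -/
def dj2 : List DT :=
  [⟨1, (0, 0, 0, 0), (0, 0, 0, 0), (0, 1, 0, 0)⟩, ⟨1, (0, 0, 0, 0), (0, 1, 0, 0), (0, 0, 0, 0)⟩,
   ⟨1, (0, 0, 0, 0), (1, 0, 0, 0), (3, 0, 0, 0)⟩, ⟨2, (1, 0, 0, 0), (1, 0, 0, 0), (2, 0, 0, 0)⟩,
   ⟨2, (1, 0, 0, 0), (2, 0, 0, 0), (1, 0, 0, 0)⟩]

/-- the diagonal of `t_3` modulo `(3, v_1 ^ 3)` -/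
def dj3 : List DT :=
  [⟨1, (0, 0, 0, 0), (0, 0, 0, 0), (0, 0, 1, 0)⟩, ⟨1, (0, 0, 0, 0), (0, 0, 1, 0), (0, 0, 0, 0)⟩,
   ⟨1, (0, 0, 0, 0), (0, 1, 0, 0), (9, 0, 0, 0)⟩, ⟨1, (0, 0, 0, 0), (1, 0, 0, 0), (0, 3, 0, 0)⟩,
   ⟨2, (0, 1, 0, 0), (3, 0, 0, 0), (6, 0, 0, 0)⟩, ⟨2, (0, 1, 0, 0), (6, 0, 0, 0), (3, 0, 0, 0)⟩,
   ⟨2, (1, 0, 0, 0), (0, 1, 0, 0), (0, 2, 0, 0)⟩, ⟨2, (1, 0, 0, 0), (0, 2, 0, 0), (0, 1, 0, 0)⟩,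
   ⟨2, (1, 0, 0, 0), (1, 0, 0, 0), (3, 2, 0, 0)⟩, ⟨1, (1, 0, 0, 0), (1, 1, 0, 0), (3, 1, 0, 0)⟩,
   ⟨2, (1, 0, 0, 0), (1, 2, 0, 0), (3, 0, 0, 0)⟩, ⟨2, (1, 0, 0, 0), (2, 0, 0, 0), (6, 1, 0, 0)⟩,
   ⟨2, (1, 0, 0, 0), (2, 1, 0, 0), (6, 0, 0, 0)⟩, ⟨1, (2, 0, 0, 0), (1, 0, 0, 0), (2, 2, 0, 0)⟩,
   ⟨2, (2, 0, 0, 0), (1, 1, 0, 0), (2, 1, 0, 0)⟩, ⟨1, (2, 0, 0, 0), (1, 2, 0, 0), (2, 0, 0, 0)⟩,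
   ⟨1, (2, 0, 0, 0), (2, 0, 0, 0), (1, 2, 0, 0)⟩, ⟨2, (2, 0, 0, 0), (2, 0, 0, 0), (5, 1, 0, 0)⟩,
   ⟨2, (2, 0, 0, 0), (2, 1, 0, 0), (1, 1, 0, 0)⟩, ⟨2, (2, 0, 0, 0), (2, 1, 0, 0), (5, 0, 0, 0)⟩,
   ⟨1, (2, 0, 0, 0), (2, 2, 0, 0), (1, 0, 0, 0)⟩, ⟨2, (2, 0, 0, 0), (3, 0, 0, 0), (4, 1, 0, 0)⟩,
   ⟨1, (2, 0, 0, 0), (3, 0, 0, 0), (8, 0, 0, 0)⟩, ⟨2, (2, 0, 0, 0), (3, 1, 0, 0), (4, 0, 0, 0)⟩,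
   ⟨1, (2, 0, 0, 0), (4, 0, 0, 0), (7, 0, 0, 0)⟩]

/-- the diagonal of `t_4` modulo `(3, v_1 ^ 3)` -/
def dj4 : List DT :=
  [⟨1, (0, 0, 0, 0), (0, 0, 0, 0), (0, 0, 0, 1)⟩, ⟨1, (0, 0, 0, 0), (0, 0, 0, 1), (0, 0, 0, 0)⟩,
   ⟨1, (0, 0, 0, 0), (0, 0, 1, 0), (27, 0, 0, 0)⟩, ⟨1, (0, 0, 0, 0), (0, 1, 0, 0), (0, 9, 0, 0)⟩,
   ⟨1, (0, 0, 0, 0), (1, 0, 0, 0), (0, 0, 3, 0)⟩, ⟨2, (0, 0, 1, 0), (9, 0, 0, 0), (18, 0, 0, 0)⟩,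
   ⟨2, (0, 0, 1, 0), (18, 0, 0, 0), (9, 0, 0, 0)⟩, ⟨2, (0, 1, 0, 0), (0, 3, 0, 0), (0, 6, 0, 0)⟩,
   ⟨2, (0, 1, 0, 0), (0, 6, 0, 0), (0, 3, 0, 0)⟩, ⟨2, (0, 1, 0, 0), (3, 0, 0, 0), (9, 6, 0, 0)⟩,
   ⟨1, (0, 1, 0, 0), (3, 3, 0, 0), (9, 3, 0, 0)⟩, ⟨2, (0, 1, 0, 0), (3, 6, 0, 0), (9, 0, 0, 0)⟩,
   ⟨2, (0, 1, 0, 0), (6, 0, 0, 0), (18, 3, 0, 0)⟩, ⟨2, (0, 1, 0, 0), (6, 3, 0, 0), (18, 0, 0, 0)⟩,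
   ⟨2, (1, 0, 0, 0), (0, 0, 1, 0), (0, 0, 2, 0)⟩, ⟨2, (1, 0, 0, 0), (0, 0, 2, 0), (0, 0, 1, 0)⟩,
   ⟨2, (1, 0, 0, 0), (0, 1, 0, 0), (9, 0, 2, 0)⟩, ⟨1, (1, 0, 0, 0), (0, 1, 1, 0), (9, 0, 1, 0)⟩,
   ⟨2, (1, 0, 0, 0), (0, 1, 2, 0), (9, 0, 0, 0)⟩, ⟨2, (1, 0, 0, 0), (0, 2, 0, 0), (18, 0, 1, 0)⟩,
   ⟨2, (1, 0, 0, 0), (0, 2, 1, 0), (18, 0, 0, 0)⟩, ⟨2, (1, 0, 0, 0), (1, 0, 0, 0), (0, 3, 2, 0)⟩,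
   ⟨1, (1, 0, 0, 0), (1, 0, 1, 0), (0, 3, 1, 0)⟩, ⟨2, (1, 0, 0, 0), (1, 0, 2, 0), (0, 3, 0, 0)⟩,
   ⟨1, (1, 0, 0, 0), (1, 1, 0, 0), (9, 3, 1, 0)⟩, ⟨1, (1, 0, 0, 0), (1, 1, 1, 0), (9, 3, 0, 0)⟩,
   ⟨2, (1, 0, 0, 0), (1, 2, 0, 0), (18, 3, 0, 0)⟩, ⟨2, (1, 0, 0, 0), (2, 0, 0, 0), (0, 6, 1, 0)⟩,
   ⟨2, (1, 0, 0, 0), (2, 0, 1, 0), (0, 6, 0, 0)⟩, ⟨2, (1, 0, 0, 0), (2, 1, 0, 0), (9, 6, 0, 0)⟩,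
   ⟨1, (1, 1, 0, 0), (3, 0, 0, 0), (6, 0, 2, 0)⟩, ⟨2, (1, 1, 0, 0), (3, 0, 1, 0), (6, 0, 1, 0)⟩,
   ⟨1, (1, 1, 0, 0), (3, 0, 2, 0), (6, 0, 0, 0)⟩, ⟨2, (1, 1, 0, 0), (3, 1, 0, 0), (15, 0, 1, 0)⟩,
   ⟨2, (1, 1, 0, 0), (3, 1, 1, 0), (15, 0, 0, 0)⟩, ⟨1, (1, 1, 0, 0), (3, 2, 0, 0), (24, 0, 0, 0)⟩,
   ⟨2, (1, 1, 0, 0), (4, 0, 0, 0), (6, 3, 1, 0)⟩, ⟨2, (1, 1, 0, 0), (4, 0, 1, 0), (6, 3, 0, 0)⟩,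
   ⟨2, (1, 1, 0, 0), (4, 1, 0, 0), (15, 3, 0, 0)⟩, ⟨1, (1, 1, 0, 0), (5, 0, 0, 0), (6, 6, 0, 0)⟩,
   ⟨1, (1, 1, 0, 0), (6, 0, 0, 0), (3, 0, 2, 0)⟩, ⟨2, (1, 1, 0, 0), (6, 0, 1, 0), (3, 0, 1, 0)⟩,
   ⟨1, (1, 1, 0, 0), (6, 0, 2, 0), (3, 0, 0, 0)⟩, ⟨2, (1, 1, 0, 0), (6, 1, 0, 0), (12, 0, 1, 0)⟩,
   ⟨2, (1, 1, 0, 0), (6, 1, 1, 0), (12, 0, 0, 0)⟩, ⟨1, (1, 1, 0, 0), (6, 2, 0, 0), (21, 0, 0, 0)⟩,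
   ⟨2, (1, 1, 0, 0), (7, 0, 0, 0), (3, 3, 1, 0)⟩, ⟨2, (1, 1, 0, 0), (7, 0, 1, 0), (3, 3, 0, 0)⟩,
   ⟨2, (1, 1, 0, 0), (7, 1, 0, 0), (12, 3, 0, 0)⟩, ⟨1, (1, 1, 0, 0), (8, 0, 0, 0), (3, 6, 0, 0)⟩,
   ⟨1, (2, 0, 0, 0), (0, 1, 0, 0), (0, 2, 2, 0)⟩, ⟨2, (2, 0, 0, 0), (0, 1, 1, 0), (0, 2, 1, 0)⟩,
   ⟨1, (2, 0, 0, 0), (0, 1, 2, 0), (0, 2, 0, 0)⟩, ⟨1, (2, 0, 0, 0), (0, 2, 0, 0), (0, 1, 2, 0)⟩,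
   ⟨2, (2, 0, 0, 0), (0, 2, 0, 0), (9, 2, 1, 0)⟩, ⟨2, (2, 0, 0, 0), (0, 2, 1, 0), (0, 1, 1, 0)⟩,
   ⟨2, (2, 0, 0, 0), (0, 2, 1, 0), (9, 2, 0, 0)⟩, ⟨1, (2, 0, 0, 0), (0, 2, 2, 0), (0, 1, 0, 0)⟩,
   ⟨2, (2, 0, 0, 0), (0, 3, 0, 0), (9, 1, 1, 0)⟩, ⟨1, (2, 0, 0, 0), (0, 3, 0, 0), (18, 2, 0, 0)⟩,
   ⟨2, (2, 0, 0, 0), (0, 3, 1, 0), (9, 1, 0, 0)⟩, ⟨1, (2, 0, 0, 0), (0, 4, 0, 0), (18, 1, 0, 0)⟩,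
   ⟨1, (2, 0, 0, 0), (1, 0, 0, 0), (3, 2, 2, 0)⟩, ⟨2, (2, 0, 0, 0), (1, 0, 1, 0), (3, 2, 1, 0)⟩,
   ⟨1, (2, 0, 0, 0), (1, 0, 2, 0), (3, 2, 0, 0)⟩, ⟨2, (2, 0, 0, 0), (1, 1, 0, 0), (0, 5, 1, 0)⟩,
   ⟨2, (2, 0, 0, 0), (1, 1, 0, 0), (3, 1, 2, 0)⟩, ⟨2, (2, 0, 0, 0), (1, 1, 0, 0), (12, 2, 1, 0)⟩,
   ⟨2, (2, 0, 0, 0), (1, 1, 1, 0), (0, 5, 0, 0)⟩, ⟨1, (2, 0, 0, 0), (1, 1, 1, 0), (3, 1, 1, 0)⟩,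
   ⟨2, (2, 0, 0, 0), (1, 1, 1, 0), (12, 2, 0, 0)⟩, ⟨2, (2, 0, 0, 0), (1, 1, 2, 0), (3, 1, 0, 0)⟩,
   ⟨2, (2, 0, 0, 0), (1, 2, 0, 0), (0, 4, 1, 0)⟩, ⟨1, (2, 0, 0, 0), (1, 2, 0, 0), (3, 0, 2, 0)⟩,
   ⟨2, (2, 0, 0, 0), (1, 2, 0, 0), (9, 5, 0, 0)⟩, ⟨1, (2, 0, 0, 0), (1, 2, 0, 0), (12, 1, 1, 0)⟩,
   ⟨1, (2, 0, 0, 0), (1, 2, 0, 0), (21, 2, 0, 0)⟩, ⟨2, (2, 0, 0, 0), (1, 2, 1, 0), (0, 4, 0, 0)⟩,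
   ⟨2, (2, 0, 0, 0), (1, 2, 1, 0), (3, 0, 1, 0)⟩, ⟨1, (2, 0, 0, 0), (1, 2, 1, 0), (12, 1, 0, 0)⟩,
   ⟨1, (2, 0, 0, 0), (1, 2, 2, 0), (3, 0, 0, 0)⟩, ⟨2, (2, 0, 0, 0), (1, 3, 0, 0), (9, 4, 0, 0)⟩,
   ⟨2, (2, 0, 0, 0), (1, 3, 0, 0), (12, 0, 1, 0)⟩, ⟨2, (2, 0, 0, 0), (1, 3, 0, 0), (21, 1, 0, 0)⟩,
   ⟨2, (2, 0, 0, 0), (1, 3, 1, 0), (12, 0, 0, 0)⟩, ⟨1, (2, 0, 0, 0), (1, 4, 0, 0), (21, 0, 0, 0)⟩,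
   ⟨2, (2, 0, 0, 0), (2, 0, 0, 0), (3, 5, 1, 0)⟩, ⟨1, (2, 0, 0, 0), (2, 0, 0, 0), (6, 1, 2, 0)⟩,
   ⟨2, (2, 0, 0, 0), (2, 0, 1, 0), (3, 5, 0, 0)⟩, ⟨2, (2, 0, 0, 0), (2, 0, 1, 0), (6, 1, 1, 0)⟩,
   ⟨1, (2, 0, 0, 0), (2, 0, 2, 0), (6, 1, 0, 0)⟩, ⟨1, (2, 0, 0, 0), (2, 1, 0, 0), (0, 8, 0, 0)⟩,
   ⟨1, (2, 0, 0, 0), (2, 1, 0, 0), (3, 4, 1, 0)⟩, ⟨1, (2, 0, 0, 0), (2, 1, 0, 0), (6, 0, 2, 0)⟩,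
   ⟨2, (2, 0, 0, 0), (2, 1, 0, 0), (12, 5, 0, 0)⟩, ⟨2, (2, 0, 0, 0), (2, 1, 0, 0), (15, 1, 1, 0)⟩,
   ⟨1, (2, 0, 0, 0), (2, 1, 1, 0), (3, 4, 0, 0)⟩, ⟨2, (2, 0, 0, 0), (2, 1, 1, 0), (6, 0, 1, 0)⟩,
   ⟨2, (2, 0, 0, 0), (2, 1, 1, 0), (15, 1, 0, 0)⟩, ⟨1, (2, 0, 0, 0), (2, 1, 2, 0), (6, 0, 0, 0)⟩,
   ⟨1, (2, 0, 0, 0), (2, 2, 0, 0), (0, 7, 0, 0)⟩, ⟨2, (2, 0, 0, 0), (2, 2, 0, 0), (3, 3, 1, 0)⟩,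
   ⟨1, (2, 0, 0, 0), (2, 2, 0, 0), (12, 4, 0, 0)⟩, ⟨2, (2, 0, 0, 0), (2, 2, 0, 0), (15, 0, 1, 0)⟩,
   ⟨1, (2, 0, 0, 0), (2, 2, 0, 0), (24, 1, 0, 0)⟩, ⟨2, (2, 0, 0, 0), (2, 2, 1, 0), (3, 3, 0, 0)⟩,
   ⟨2, (2, 0, 0, 0), (2, 2, 1, 0), (15, 0, 0, 0)⟩, ⟨2, (2, 0, 0, 0), (2, 3, 0, 0), (12, 3, 0, 0)⟩,
   ⟨1, (2, 0, 0, 0), (2, 3, 0, 0), (24, 0, 0, 0)⟩, ⟨1, (2, 0, 0, 0), (3, 0, 0, 0), (3, 8, 0, 0)⟩,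
   ⟨2, (2, 0, 0, 0), (3, 0, 0, 0), (6, 4, 1, 0)⟩, ⟨2, (2, 0, 0, 0), (3, 0, 1, 0), (6, 4, 0, 0)⟩,
   ⟨2, (2, 0, 0, 0), (3, 1, 0, 0), (3, 7, 0, 0)⟩, ⟨2, (2, 0, 0, 0), (3, 1, 0, 0), (6, 3, 1, 0)⟩,
   ⟨2, (2, 0, 0, 0), (3, 1, 0, 0), (15, 4, 0, 0)⟩, ⟨2, (2, 0, 0, 0), (3, 1, 1, 0), (6, 3, 0, 0)⟩,
   ⟨1, (2, 0, 0, 0), (3, 2, 0, 0), (3, 6, 0, 0)⟩, ⟨2, (2, 0, 0, 0), (3, 2, 0, 0), (15, 3, 0, 0)⟩,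
   ⟨1, (2, 0, 0, 0), (4, 0, 0, 0), (6, 7, 0, 0)⟩, ⟨1, (2, 0, 0, 0), (4, 1, 0, 0), (6, 6, 0, 0)⟩,
   ⟨2, (1, 2, 0, 0), (6, 0, 0, 0), (12, 0, 1, 0)⟩, ⟨2, (1, 2, 0, 0), (6, 0, 1, 0), (12, 0, 0, 0)⟩,
   ⟨2, (1, 2, 0, 0), (6, 1, 0, 0), (21, 0, 0, 0)⟩, ⟨2, (1, 2, 0, 0), (7, 0, 0, 0), (12, 3, 0, 0)⟩,
   ⟨1, (1, 2, 0, 0), (9, 0, 0, 0), (9, 0, 1, 0)⟩, ⟨1, (1, 2, 0, 0), (9, 0, 1, 0), (9, 0, 0, 0)⟩,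
   ⟨1, (1, 2, 0, 0), (9, 1, 0, 0), (18, 0, 0, 0)⟩, ⟨1, (1, 2, 0, 0), (10, 0, 0, 0), (9, 3, 0, 0)⟩,
   ⟨2, (1, 2, 0, 0), (12, 0, 0, 0), (6, 0, 1, 0)⟩, ⟨2, (1, 2, 0, 0), (12, 0, 1, 0), (6, 0, 0, 0)⟩,
   ⟨2, (1, 2, 0, 0), (12, 1, 0, 0), (15, 0, 0, 0)⟩, ⟨2, (1, 2, 0, 0), (13, 0, 0, 0), (6, 3, 0, 0)⟩,
   ⟨1, (2, 1, 0, 0), (3, 1, 0, 0), (6, 2, 1, 0)⟩, ⟨1, (2, 1, 0, 0), (3, 1, 1, 0), (6, 2, 0, 0)⟩,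
   ⟨1, (2, 1, 0, 0), (3, 2, 0, 0), (6, 1, 1, 0)⟩, ⟨1, (2, 1, 0, 0), (3, 2, 0, 0), (15, 2, 0, 0)⟩,
   ⟨1, (2, 1, 0, 0), (3, 2, 1, 0), (6, 1, 0, 0)⟩, ⟨1, (2, 1, 0, 0), (3, 3, 0, 0), (15, 1, 0, 0)⟩,
   ⟨1, (2, 1, 0, 0), (4, 0, 0, 0), (9, 2, 1, 0)⟩, ⟨1, (2, 1, 0, 0), (4, 0, 1, 0), (9, 2, 0, 0)⟩,
   ⟨1, (2, 1, 0, 0), (4, 1, 0, 0), (6, 5, 0, 0)⟩, ⟨2, (2, 1, 0, 0), (4, 1, 0, 0), (9, 1, 1, 0)⟩,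
   ⟨1, (2, 1, 0, 0), (4, 1, 0, 0), (18, 2, 0, 0)⟩, ⟨2, (2, 1, 0, 0), (4, 1, 1, 0), (9, 1, 0, 0)⟩,
   ⟨1, (2, 1, 0, 0), (4, 2, 0, 0), (6, 4, 0, 0)⟩, ⟨1, (2, 1, 0, 0), (4, 2, 0, 0), (9, 0, 1, 0)⟩,
   ⟨2, (2, 1, 0, 0), (4, 2, 0, 0), (18, 1, 0, 0)⟩, ⟨1, (2, 1, 0, 0), (4, 2, 1, 0), (9, 0, 0, 0)⟩,
   ⟨1, (2, 1, 0, 0), (4, 3, 0, 0), (18, 0, 0, 0)⟩, ⟨1, (2, 1, 0, 0), (5, 0, 0, 0), (9, 5, 0, 0)⟩,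
   ⟨1, (2, 1, 0, 0), (5, 0, 0, 0), (12, 1, 1, 0)⟩, ⟨1, (2, 1, 0, 0), (5, 0, 1, 0), (12, 1, 0, 0)⟩,
   ⟨2, (2, 1, 0, 0), (5, 1, 0, 0), (9, 4, 0, 0)⟩, ⟨1, (2, 1, 0, 0), (5, 1, 0, 0), (12, 0, 1, 0)⟩,
   ⟨1, (2, 1, 0, 0), (5, 1, 0, 0), (21, 1, 0, 0)⟩, ⟨1, (2, 1, 0, 0), (5, 1, 1, 0), (12, 0, 0, 0)⟩,
   ⟨1, (2, 1, 0, 0), (5, 2, 0, 0), (9, 3, 0, 0)⟩, ⟨1, (2, 1, 0, 0), (5, 2, 0, 0), (21, 0, 0, 0)⟩,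
   ⟨1, (2, 1, 0, 0), (6, 0, 0, 0), (12, 4, 0, 0)⟩, ⟨1, (2, 1, 0, 0), (6, 1, 0, 0), (3, 2, 1, 0)⟩,
   ⟨1, (2, 1, 0, 0), (6, 1, 0, 0), (12, 3, 0, 0)⟩, ⟨1, (2, 1, 0, 0), (6, 1, 1, 0), (3, 2, 0, 0)⟩,
   ⟨1, (2, 1, 0, 0), (6, 2, 0, 0), (3, 1, 1, 0)⟩, ⟨1, (2, 1, 0, 0), (6, 2, 0, 0), (12, 2, 0, 0)⟩,
   ⟨1, (2, 1, 0, 0), (6, 2, 1, 0), (3, 1, 0, 0)⟩, ⟨1, (2, 1, 0, 0), (6, 3, 0, 0), (12, 1, 0, 0)⟩,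
   ⟨1, (2, 1, 0, 0), (7, 0, 0, 0), (6, 2, 1, 0)⟩, ⟨1, (2, 1, 0, 0), (7, 0, 1, 0), (6, 2, 0, 0)⟩,
   ⟨1, (2, 1, 0, 0), (7, 1, 0, 0), (3, 5, 0, 0)⟩, ⟨2, (2, 1, 0, 0), (7, 1, 0, 0), (6, 1, 1, 0)⟩,
   ⟨1, (2, 1, 0, 0), (7, 1, 0, 0), (15, 2, 0, 0)⟩, ⟨2, (2, 1, 0, 0), (7, 1, 1, 0), (6, 1, 0, 0)⟩,
   ⟨1, (2, 1, 0, 0), (7, 2, 0, 0), (3, 4, 0, 0)⟩, ⟨1, (2, 1, 0, 0), (7, 2, 0, 0), (6, 0, 1, 0)⟩,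
   ⟨2, (2, 1, 0, 0), (7, 2, 0, 0), (15, 1, 0, 0)⟩, ⟨1, (2, 1, 0, 0), (7, 2, 1, 0), (6, 0, 0, 0)⟩,
   ⟨1, (2, 1, 0, 0), (7, 3, 0, 0), (15, 0, 0, 0)⟩, ⟨1, (2, 1, 0, 0), (8, 0, 0, 0), (6, 5, 0, 0)⟩,
   ⟨1, (2, 1, 0, 0), (8, 0, 0, 0), (9, 1, 1, 0)⟩, ⟨1, (2, 1, 0, 0), (8, 0, 1, 0), (9, 1, 0, 0)⟩,
   ⟨2, (2, 1, 0, 0), (8, 1, 0, 0), (6, 4, 0, 0)⟩, ⟨1, (2, 1, 0, 0), (8, 1, 0, 0), (9, 0, 1, 0)⟩,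
   ⟨1, (2, 1, 0, 0), (8, 1, 0, 0), (18, 1, 0, 0)⟩, ⟨1, (2, 1, 0, 0), (8, 1, 1, 0), (9, 0, 0, 0)⟩,
   ⟨1, (2, 1, 0, 0), (8, 2, 0, 0), (6, 3, 0, 0)⟩, ⟨1, (2, 1, 0, 0), (8, 2, 0, 0), (18, 0, 0, 0)⟩,
   ⟨1, (2, 1, 0, 0), (9, 0, 0, 0), (9, 4, 0, 0)⟩, ⟨1, (2, 1, 0, 0), (9, 1, 0, 0), (9, 3, 0, 0)⟩,
   ⟨2, (1, 3, 0, 0), (3, 0, 0, 0), (24, 0, 0, 0)⟩, ⟨2, (1, 3, 0, 0), (6, 0, 0, 0), (21, 0, 0, 0)⟩,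
   ⟨2, (1, 3, 0, 0), (12, 0, 0, 0), (15, 0, 0, 0)⟩,
   ⟨2, (1, 3, 0, 0), (15, 0, 0, 0), (12, 0, 0, 0)⟩, ⟨2, (1, 3, 0, 0), (21, 0, 0, 0), (6, 0, 0, 0)⟩,
   ⟨2, (1, 3, 0, 0), (24, 0, 0, 0), (3, 0, 0, 0)⟩, ⟨1, (2, 2, 0, 0), (6, 1, 0, 0), (12, 2, 0, 0)⟩,
   ⟨1, (2, 2, 0, 0), (6, 2, 0, 0), (12, 1, 0, 0)⟩, ⟨1, (2, 2, 0, 0), (7, 0, 0, 0), (15, 2, 0, 0)⟩,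
   ⟨2, (2, 2, 0, 0), (7, 1, 0, 0), (15, 1, 0, 0)⟩, ⟨1, (2, 2, 0, 0), (7, 2, 0, 0), (15, 0, 0, 0)⟩,
   ⟨1, (2, 2, 0, 0), (8, 0, 0, 0), (18, 1, 0, 0)⟩, ⟨1, (2, 2, 0, 0), (8, 1, 0, 0), (18, 0, 0, 0)⟩,
   ⟨2, (2, 2, 0, 0), (9, 1, 0, 0), (9, 2, 0, 0)⟩, ⟨2, (2, 2, 0, 0), (9, 2, 0, 0), (9, 1, 0, 0)⟩,
   ⟨2, (2, 2, 0, 0), (10, 0, 0, 0), (12, 2, 0, 0)⟩,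
   ⟨1, (2, 2, 0, 0), (10, 1, 0, 0), (12, 1, 0, 0)⟩,
   ⟨2, (2, 2, 0, 0), (10, 2, 0, 0), (12, 0, 0, 0)⟩,
   ⟨2, (2, 2, 0, 0), (11, 0, 0, 0), (15, 1, 0, 0)⟩,
   ⟨2, (2, 2, 0, 0), (11, 1, 0, 0), (15, 0, 0, 0)⟩, ⟨1, (2, 2, 0, 0), (12, 1, 0, 0), (6, 2, 0, 0)⟩,
   ⟨1, (2, 2, 0, 0), (12, 2, 0, 0), (6, 1, 0, 0)⟩, ⟨1, (2, 2, 0, 0), (13, 0, 0, 0), (9, 2, 0, 0)⟩,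
   ⟨2, (2, 2, 0, 0), (13, 1, 0, 0), (9, 1, 0, 0)⟩, ⟨1, (2, 2, 0, 0), (13, 2, 0, 0), (9, 0, 0, 0)⟩,
   ⟨1, (2, 2, 0, 0), (14, 0, 0, 0), (12, 1, 0, 0)⟩,
   ⟨1, (2, 2, 0, 0), (14, 1, 0, 0), (12, 0, 0, 0)⟩]

/-- the right unit of `v_1` modulo `(3, v_1 ^ 3)` -/
def ej1 : List DT :=
  [⟨1, (1, 0, 0, 0), (0, 0, 0, 0), (0, 0, 0, 0)⟩]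

/-- the right unit of `v_2` modulo `(3, v_1 ^ 3)` -/
def ej2 : List DT :=
  [⟨1, (0, 1, 0, 0), (0, 0, 0, 0), (0, 0, 0, 0)⟩, ⟨1, (1, 0, 0, 0), (3, 0, 0, 0), (0, 0, 0, 0)⟩]

/-- the right unit of `v_3` modulo `(3, v_1 ^ 3)` -/
def ej3 : List DT :=
  [⟨1, (0, 0, 1, 0), (0, 0, 0, 0), (0, 0, 0, 0)⟩, ⟨1, (0, 1, 0, 0), (9, 0, 0, 0), (0, 0, 0, 0)⟩,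
   ⟨1, (1, 0, 0, 0), (0, 3, 0, 0), (0, 0, 0, 0)⟩, ⟨2, (0, 3, 0, 0), (1, 0, 0, 0), (0, 0, 0, 0)⟩,
   ⟨2, (2, 2, 0, 0), (3, 0, 0, 0), (0, 0, 0, 0)⟩]

/-- the right unit of `v_4` modulo `(3, v_1 ^ 3)` -/
def ej4 : List DT :=
  [⟨1, (0, 0, 0, 1), (0, 0, 0, 0), (0, 0, 0, 0)⟩, ⟨1, (0, 0, 1, 0), (27, 0, 0, 0), (0, 0, 0, 0)⟩,
   ⟨1, (0, 1, 0, 0), (0, 9, 0, 0), (0, 0, 0, 0)⟩, ⟨1, (1, 0, 0, 0), (0, 0, 3, 0), (0, 0, 0, 0)⟩,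
   ⟨2, (0, 0, 3, 0), (1, 0, 0, 0), (0, 0, 0, 0)⟩, ⟨2, (0, 3, 0, 0), (28, 0, 0, 0), (0, 0, 0, 0)⟩,
   ⟨2, (1, 1, 2, 0), (9, 0, 0, 0), (0, 0, 0, 0)⟩, ⟨2, (1, 2, 1, 0), (18, 0, 0, 0), (0, 0, 0, 0)⟩,
   ⟨2, (2, 0, 2, 0), (0, 3, 0, 0), (0, 0, 0, 0)⟩, ⟨1, (2, 1, 1, 0), (9, 3, 0, 0), (0, 0, 0, 0)⟩,
   ⟨2, (2, 2, 0, 0), (18, 3, 0, 0), (0, 0, 0, 0)⟩, ⟨1, (1, 3, 2, 0), (1, 0, 0, 0), (0, 0, 0, 0)⟩,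
   ⟨2, (1, 4, 1, 0), (10, 0, 0, 0), (0, 0, 0, 0)⟩, ⟨1, (1, 5, 0, 0), (19, 0, 0, 0), (0, 0, 0, 0)⟩,
   ⟨2, (2, 3, 1, 0), (1, 3, 0, 0), (0, 0, 0, 0)⟩, ⟨2, (2, 4, 0, 0), (10, 3, 0, 0), (0, 0, 0, 0)⟩,
   ⟨2, (1, 6, 1, 0), (2, 0, 0, 0), (0, 0, 0, 0)⟩, ⟨2, (1, 7, 0, 0), (11, 0, 0, 0), (0, 0, 0, 0)⟩,
   ⟨2, (2, 6, 0, 0), (2, 3, 0, 0), (0, 0, 0, 0)⟩, ⟨2, (0, 9, 0, 0), (0, 1, 0, 0), (0, 0, 0, 0)⟩,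
   ⟨1, (0, 9, 0, 0), (4, 0, 0, 0), (0, 0, 0, 0)⟩]

/-- the right unit of `v_1` modulo `(3, v_1 ^ 4)` -/
def ek1 : List DT :=
  [⟨1, (1, 0, 0, 0), (0, 0, 0, 0), (0, 0, 0, 0)⟩]

/-- the right unit of `v_2` modulo `(3, v_1 ^ 4)` -/
def ek2 : List DT :=
  [⟨1, (0, 1, 0, 0), (0, 0, 0, 0), (0, 0, 0, 0)⟩, ⟨1, (1, 0, 0, 0), (3, 0, 0, 0), (0, 0, 0, 0)⟩,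
   ⟨2, (3, 0, 0, 0), (1, 0, 0, 0), (0, 0, 0, 0)⟩]

/-- the right unit of `v_3` modulo `(3, v_1 ^ 4)` -/
def ek3 : List DT :=
  [⟨1, (0, 0, 1, 0), (0, 0, 0, 0), (0, 0, 0, 0)⟩, ⟨1, (0, 1, 0, 0), (9, 0, 0, 0), (0, 0, 0, 0)⟩,
   ⟨1, (1, 0, 0, 0), (0, 3, 0, 0), (0, 0, 0, 0)⟩, ⟨2, (0, 3, 0, 0), (1, 0, 0, 0), (0, 0, 0, 0)⟩,
   ⟨2, (3, 0, 0, 0), (10, 0, 0, 0), (0, 0, 0, 0)⟩, ⟨2, (2, 2, 0, 0), (3, 0, 0, 0), (0, 0, 0, 0)⟩,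
   ⟨2, (3, 1, 0, 0), (6, 0, 0, 0), (0, 0, 0, 0)⟩]

/-- the right unit of `v_4` modulo `(3, v_1 ^ 4)` -/
def ek4 : List DT :=
  [⟨1, (0, 0, 0, 1), (0, 0, 0, 0), (0, 0, 0, 0)⟩, ⟨1, (0, 0, 1, 0), (27, 0, 0, 0), (0, 0, 0, 0)⟩,
   ⟨1, (0, 1, 0, 0), (0, 9, 0, 0), (0, 0, 0, 0)⟩, ⟨1, (1, 0, 0, 0), (0, 0, 3, 0), (0, 0, 0, 0)⟩,
   ⟨2, (0, 0, 3, 0), (1, 0, 0, 0), (0, 0, 0, 0)⟩, ⟨2, (0, 3, 0, 0), (28, 0, 0, 0), (0, 0, 0, 0)⟩,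
   ⟨2, (3, 0, 0, 0), (1, 9, 0, 0), (0, 0, 0, 0)⟩, ⟨2, (1, 1, 2, 0), (9, 0, 0, 0), (0, 0, 0, 0)⟩,
   ⟨2, (1, 2, 1, 0), (18, 0, 0, 0), (0, 0, 0, 0)⟩, ⟨2, (2, 0, 2, 0), (0, 3, 0, 0), (0, 0, 0, 0)⟩,
   ⟨1, (2, 1, 1, 0), (9, 3, 0, 0), (0, 0, 0, 0)⟩, ⟨2, (2, 2, 0, 0), (18, 3, 0, 0), (0, 0, 0, 0)⟩,
   ⟨2, (3, 0, 1, 0), (0, 6, 0, 0), (0, 0, 0, 0)⟩, ⟨2, (3, 1, 0, 0), (9, 6, 0, 0), (0, 0, 0, 0)⟩,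
   ⟨1, (1, 3, 2, 0), (1, 0, 0, 0), (0, 0, 0, 0)⟩, ⟨2, (1, 4, 1, 0), (10, 0, 0, 0), (0, 0, 0, 0)⟩,
   ⟨1, (1, 5, 0, 0), (19, 0, 0, 0), (0, 0, 0, 0)⟩, ⟨2, (2, 3, 1, 0), (1, 3, 0, 0), (0, 0, 0, 0)⟩,
   ⟨2, (2, 4, 0, 0), (10, 3, 0, 0), (0, 0, 0, 0)⟩, ⟨1, (3, 3, 0, 0), (1, 6, 0, 0), (0, 0, 0, 0)⟩,
   ⟨1, (3, 2, 2, 0), (3, 0, 0, 0), (0, 0, 0, 0)⟩, ⟨2, (3, 3, 1, 0), (12, 0, 0, 0), (0, 0, 0, 0)⟩,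
   ⟨1, (3, 4, 0, 0), (21, 0, 0, 0), (0, 0, 0, 0)⟩, ⟨2, (1, 6, 1, 0), (2, 0, 0, 0), (0, 0, 0, 0)⟩,
   ⟨2, (1, 7, 0, 0), (11, 0, 0, 0), (0, 0, 0, 0)⟩, ⟨2, (2, 6, 0, 0), (2, 3, 0, 0), (0, 0, 0, 0)⟩,
   ⟨2, (0, 9, 0, 0), (0, 1, 0, 0), (0, 0, 0, 0)⟩, ⟨1, (0, 9, 0, 0), (4, 0, 0, 0), (0, 0, 0, 0)⟩,
   ⟨1, (3, 5, 1, 0), (4, 0, 0, 0), (0, 0, 0, 0)⟩, ⟨1, (3, 6, 0, 0), (13, 0, 0, 0), (0, 0, 0, 0)⟩,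
   ⟨2, (3, 7, 0, 0), (9, 0, 0, 0), (0, 0, 0, 0)⟩, ⟨1, (3, 8, 0, 0), (5, 0, 0, 0), (0, 0, 0, 0)⟩]

/-- the lists of the diagonals -/
def dlsJ (n : ℕ) : List DT := [dj1, dj2, dj3, dj4].getD n []

/-- the lists of the right units -/
def elsJ (n : ℕ) : List DT := [ej1, ej2, ej3, ej4].getD n []

/-- the lists of the right units, one step further -/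
def elsK (n : ℕ) : List DT := [ek1, ek2, ek3, ek4].getD n []

/-- the ideal `(3, v_1 ^ r)` -/
def Jr (L : Type) [CommRing L] (r : ℕ) : Ideal (AA L) := Ideal.span {((3 : ℕ) : AA L), X 0 ^ r}

/-- the lists give the structure maps modulo `(3, v_1 ^ 3)` -/
structure FormJ [Fact (Nat.Prime 3)] (L : Type) [CommRing L] : Prop where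
  del : ∀ n < 4, ∀ F E,
    coeff E (coeff F (Del 3 L (X n) - ((dlsJ n).map (DT.ev2 L)).sum)) ∈ Jr L 3
  eta : ∀ n < 4, ∀ E, coeff E (etaR 3 L (X n) - ((elsJ n).map (DT.ev1 L)).sum) ∈ Jr L 3
  eta4 : ∀ n < 4, ∀ E, coeff E (etaR 3 L (X n) - ((elsK n).map (DT.ev1 L)).sum) ∈ Jr L 4

end Vale.Agent.P236JF

end
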