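import Vale.Agent.P236JF.Alg

/-!
# P236JF / Main : the curvature condition from the vanishing of the values
-/

noncomputable section

namespace Vale.Agent.P236JF

open MvPolynomial Vale.Agent.P236EL Vale.Agent.P236KE Vale.Agent.P236K2

variable [Fact (Nat.Prime 3)] {L : Type} [CommRing L]

/-- the composite of two homogeneous matrices is homogeneous -/
theorem conv_wt {ι : Type} [Fintype ι] {s' s : ι → (ℕ →₀ ℕ) → AA L} {d du : ℕ} {dm : ι → ℕ}
    (hs : ∀ w, HomR 3 ((d : ℤ) - dm w) (s w)) (hs' : ∀ w, HomR 3 ((dm w : ℤ) - du) (s' w))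
    {E m : ℕ →₀ ℕ} (h : coeff m (∑ w, conv 3 (s' w) (s w) E) ≠ 0) :
    Finsupp.weight (wt 3) m + du = Finsupp.weight (wt 3) E + d := by
  have h1 : ∑ w, conv 3 (s' w) (s w) E ∈ WA 3 L (Finsupp.weight (wz 3) E + d - du) :=
    AddSubgroup.sum_mem _ fun w _ => by
      have h2 := grPt_id.rAp (hs' w) (grPt_id.Dop (hs w) (monomial_one_mem E))
      rwa [show Finsupp.weight (wz 3) E + ((d : ℤ) - dm w) + ((dm w : ℤ) - du) =
        Finsupp.weight (wz 3) E + d - du by ring] at h2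
  have h2 := h1 h
  rw [show wz 3 = fun i => (wt 3 i : ℤ) from rfl, weight_cast, weight_cast] at h2
  omega

/-- the augmentation condition holds for degree reasons -/
theorem aug_mem {G : ℕ → Type} [∀ q, Fintype (G q)] (R : Rs 3 L G) (he : ∀ c w, R.e c w = 1)
    (hd : ∀ w w', R.deg 1 w < R.deg 2 w') (K : Ideal (AA L)) (c : G 0) (w' : G 2) :
    ∑ w, rAp (RingHom.id _) (R.y 0 w w') (R.e c w) ∈ K := Ideal.sum_mem _ fun w _ => by
  have h1 := R.hy 0 w w' 0
  rw [map_zero, zero_add] at h1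
  rw [he, show (1 : GG L) = monomial 0 1 from rfl, rAp_monomial,
    WA_neg (sub_neg.2 (hd w w')) h1, map_zero, mul_zero]
  exact zero_mem _

/-- **The curvature condition**, from the coefficients of the composites. -/
theorem k1J_of_conv {G : ℕ → Type} [∀ q, Fintype (G q)] (R : Rs 3 L G) {dg : ∀ q, G q → ℕ}
    (hdg : ∀ q w, R.deg q w = dg q w) (he : ∀ c w, R.e c w = 1)
    (hd : ∀ w w', dg 1 w < dg 2 w') {k Q T : ℕ} (hT : T < 121)
    (h : ∀ q, q + 1 < Q → ∀ w b (E V : Q4), V.1 < k → wt4 E + dg (q + 1) w ≤ T →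
      wt4 V + dg (q + 3) b = wt4 E + dg (q + 1) w →
        coeff (m4 V) (∑ w', conv 3 (R.y (q + 1) w' b) (R.y q w w') (m4 E)) = 0) :
    R.K1 (Jr L k) Q T := by
  refine ⟨aug_mem R he (fun w w' => by rw [hdg, hdg]; exact_mod_cast hd w w') _,
    fun q hq w b E hE => ?_⟩
  rw [hdg, show wz 3 = fun i => (wt 3 i : ℤ) from rfl, weight_cast] at hE
  obtain ⟨E, rfl⟩ : ∃ G, E = m4 G := ⟨(E 0, E 1, E 2, E 3), eq_mk4 (by omega)⟩
  have h1 : ∀ m, coeff m (∑ w', conv 3 (R.y (q + 1) w' b) (R.y q w w') (m4 E)) ≠ 0 →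
      Finsupp.weight (wt 3) m + dg (q + 3) b = Finsupp.weight (wt 3) (m4 E) + dg (q + 1) w :=
    fun m hm => conv_wt (dm := dg (q + 2))
      (fun w' => by rw [← hdg, ← hdg]; exact R.hy q w w')
      (fun w' => by rw [← hdg, ← hdg]; exact R.hy (q + 1) w' b) hm
  rw [wt_m4] at hE h1
  refine mem_Jr_of_coeff fun m hm => by_contra fun h2 => ?_
  have h3 := h1 m h2
  obtain ⟨V, rfl⟩ : ∃ e, m = m4 e := ⟨(m 0, m 1, m 2, m 3), eq_mk4 (by omega)⟩
  exact h2 (h q hq w b E V (by rwa [m4_0] at hm) (by omega) (by rwa [wt_m4] at h3))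

/-- **The curvature condition**, from the values of the program. -/
theorem k1J {g : ℕ → ℕ} (R : Rs 3 L fun q => Fin (g q)) {dg : ∀ q, Fin (g q) → ℕ}
    (hdg : ∀ q w, R.deg q w = dg q w) (he : ∀ c w, R.e c w = 1)
    (hd : ∀ w w', dg 1 w < dg 2 w') {k Q T : ℕ} (hT : T < 121)
    (h : ∀ q, q + 1 < Q → ∀ w b (E V : Q4), V.1 < k → wt4 E + dg (q + 1) w ≤ T →
      wt4 V + dg (q + 3) b = wt4 E + dg (q + 1) w →
        valJ (fun w' => R.y (q + 1) w' b) (fun w' => R.y q w w') E V 0 0 = 0) :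
    R.K1 (Jr L k) Q T :=
  k1J_of_conv R hdg he hd hT fun q hq w b E V h1 h2 h3 => by
    rw [← valJ_conv]
    exact h q hq w b E V h1 h2 h3

theorem red_of_mem {F : Type} [CommRing F] {π : L →+* F} (h3 : ((3 : ℕ) : F) = 0) {a : AA L}
    (ha : a ∈ II 3 L) : red π a = 0 := by
  refine (show II 3 L ≤ RingHom.ker (red π) from ?_) ha
  rw [II, Ideal.span_le]
  rintro _ (rfl | ⟨i, rfl⟩)
  · exact (map_natCast _ _).trans h3
  · exact eval₂Hom_X' _ _ _

theorem dx_congr {F : Type} [CommRing F] {π : L →+* F} (h3 : ((3 : ℕ) : F) = 0) {ι κ : Type}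
    [Fintype ι] {y y' : ι → κ → (ℕ →₀ ℕ) → AA L} (h : ∀ i k E, y' i k E - y i k E ∈ II 3 L) :
    dx 3 (red π) y' = dx 3 (red π) y := by
  refine LinearMap.ext fun a => funext fun k => ?_
  rw [dx_apply, dx_apply]
  refine Finset.sum_congr rfl fun i _ => ?_
  rw [Dop_apply, Dop_apply, rAp_eq, rAp_eq]
  refine Finset.sum_congr rfl fun E _ => congrArg _ (sub_eq_zero.1 ?_)
  rw [← map_sub, etax_eq]
  refine MvPolynomial.ext _ _ fun m => ?_
  rw [coeff_map, coeff_zero]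
  exact red_of_mem h3 (mem_map_C_iff.1 (inv_II (Ideal.mem_map_of_mem _ (h i k E))) m)

/-- **Exactness over the residue field only depends on the data modulo the ideal.** -/
theorem k2_congr {G : ℕ → Type} [∀ q, Fintype (G q)] {R R' : Rs 3 L G} {F : Type} [Field F]
    {π : L →+* F} (h3 : ((3 : ℕ) : F) = 0) (hd : R'.deg = R.deg) (he : R'.e = R.e)
    (hy : ∀ q w w' E, R'.y q w w' E - R.y q w w' E ∈ II 3 L) {Q : ℕ} {T : ℤ} (h : R.K2 π Q T) :
    R'.K2 π Q T := by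
  refine ⟨?_, ?_, fun q => ?_⟩
  · rw [he]
    exact h.inj
  · rw [hd, he, dx_congr h3 (hy 0)]
    exact h.aug
  · rw [hd, dx_congr h3 (hy q), dx_congr h3 (hy (q + 1))]
    exact h.ex q

end Vale.Agent.P236JF

end
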