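import Vale.Agent.P236JF.Form
import Vale.Agent.P236KE.Alg
import Vale.Agent.P236EL.Cmp

/-!
# P236JF / Alg : the recursion for the convolution of two matrices of functionals
-/

noncomputable section

namespace Vale.Agent.P236JF

open MvPolynomial Vale.Agent.P236EL Vale.Agent.P236KE Vale.Agent.P236K2

variable [Fact (Nat.Prime 3)] {L : Type} [CommRing L] {ι κ : Type} [Fintype ι]

/-- the pairing of a matrix and a row of functionals with a function of two arrows -/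
def Zg (r' : ι → κ → (ℕ →₀ ℕ) → AA L) (r : ι → (ℕ →₀ ℕ) → AA L) (P : MvPolynomial ℕ (GG L))
    (b : κ) : AA L := ∑ w, rAp (RingHom.id _) (r' w b) (rAp (etaR 3 L) (r w) P)

variable (r' : ι → κ → (ℕ →₀ ℕ) → AA L) (r : ι → (ℕ →₀ ℕ) → AA L)

theorem Zg_add (P Q : MvPolynomial ℕ (GG L)) (b : κ) :
    Zg r' r (P + Q) b = Zg r' r P b + Zg r' r Q b := by
  simp only [Zg, map_add, Finset.sum_add_distrib]

theorem Zg_C (a : AA L) (P : MvPolynomial ℕ (GG L)) (b : κ) :
    Zg r' r (C (C a) * P) b = a * Zg r' r P b := by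
  simp only [Zg, rAp_C_mul, Finset.mul_sum]

theorem Zg_sum (l : List (MvPolynomial ℕ (GG L))) (b : κ) :
    Zg r' r l.sum b = (l.map fun P => Zg r' r P b).sum := by
  induction l with
  | nil => simp [Zg]
  | cons P l ih => rw [List.sum_cons, Zg_add, ih, List.map_cons, List.sum_cons]

theorem Zg_mem {K : Ideal (AA L)} {P : MvPolynomial ℕ (GG L)} (h : P ∈ (K.map C).map C) (b : κ) :
    Zg r' r P b ∈ K := Ideal.sum_mem _ fun _ _ =>
  rAp_mem (mem_map_C_iff.1 (rAp_mem (J := K.map C) (mem_map_C_iff.1 h)))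

/-- the values: the diagonal of `t ^ G` times `t ^ E ⊗ t ^ F`, paired with the functionals -/
def vecJ (G E F : Q4) : κ → AA L := Zg r' r (Del 3 L (monomial (m4 G) 1) * mon2 L E F)

/-- **The recursion**, for any list which gives the diagonal of `t_(i+1)` modulo `K`. -/
theorem vecJ_step_of {K : Ideal (AA L)} {i : ℕ} {l : List DT}
    (hl : ∀ F E, coeff E (coeff F (Del 3 L (X i) - (l.map (DT.ev2 L)).sum)) ∈ K) {G G' : Q4}
    (e : m4 G' = Finsupp.single i 1 + m4 G) (E F : Q4) (b : κ) :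
    vecJ r' r G' E F b -
      (l.map fun τ => monomial (m4 τ.v) (τ.c : L) * vecJ r' r G (E + τ.x) (F + τ.y) b).sum ∈ K := by
  set D := Del 3 L (monomial (m4 G) 1) with hD
  have h1 : Del 3 L (monomial (m4 G') 1) * mon2 L E F =
      (Del 3 L (X i) - (l.map (DT.ev2 L)).sum) * (D * mon2 L E F) +
        (l.map fun τ => C (C (monomial (m4 τ.v) (τ.c : L))) *
          (D * mon2 L (E + τ.x) (F + τ.y))).sum := by
    have h0 : (monomial (m4 G') 1 : GG L) = X i * monomial (m4 G) 1 := by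
      rw [e, X, monomial_mul, one_mul]
    have h00 : ∀ τ : DT, C (C (monomial (m4 τ.v) (τ.c : L))) * (D * mon2 L (E + τ.x) (F + τ.y)) =
        τ.ev2 L * (D * mon2 L E F) := fun τ => by
      rw [mul_left_comm, ← ev2_mul, mul_left_comm]
    simp only [h00]
    rw [List.sum_map_mul_right, ← add_mul, sub_add_cancel, h0, map_mul, mul_assoc]
  have h2 := Zg_mem r' r (Ideal.mul_mem_right (D * mon2 L E F) _
    (mem_map_C_iff.2 fun F => mem_map_C_iff.2 fun E => hl F E)) b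
  rw [vecJ, h1, Zg_add, Zg_sum, List.map_map]
  simp only [Function.comp_def, Zg_C]
  rwa [show (l.map fun τ => monomial (m4 τ.v) (τ.c : L) * vecJ r' r G (E + τ.x) (F + τ.y) b) =
    l.map fun τ => monomial (m4 τ.v) (τ.c : L) * Zg r' r (D * mon2 L (E + τ.x) (F + τ.y)) b
    from rfl, add_sub_cancel_right]

theorem vecJ_step {i : ℕ} (hi : i < 4) {G G' : Q4} (e : m4 G' = Finsupp.single i 1 + m4 G)
    (E F : Q4) (b : κ) : vecJ r' r G' E F b - ((dlsJ i).map fun τ =>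
      monomial (m4 τ.v) (τ.c : L) * vecJ r' r G (E + τ.x) (F + τ.y) b).sum ∈ Jr L 3 :=
  vecJ_step_of r' r ((formJ L).del i hi) e E F b

theorem vecJ_t1 (g1 g2 g3 g4 : ℕ) (E F : Q4) (b : κ) : vecJ r' r (g1 + 1, g2, g3, g4) E F b -
    (vecJ r' r (g1, g2, g3, g4) E (F + (1, 0, 0, 0)) b +
      vecJ r' r (g1, g2, g3, g4) (E + (1, 0, 0, 0)) F b) ∈ Jr L 3 := by
  have h := vecJ_step r' r (i := 0) (by omega) (G := (g1, g2, g3, g4))
    (G' := (g1 + 1, g2, g3, g4)) (by simp only [m4, mk4, Finsupp.single_add]; abel) E F b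
  rw [show dlsJ 0 = dj1 from rfl, dj1] at h
  simp only [List.map_cons, List.map_nil, List.sum_cons, List.sum_nil, add_zero, Nat.cast_one,
    show ((0, 0, 0, 0) : Q4) = 0 from rfl, m4_zero, monomial_zero', map_one, one_mul] at h
  exact h

theorem vecJ_t2 (g1 g2 g3 g4 : ℕ) (E F : Q4) (b : κ) : vecJ r' r (g1, g2 + 1, g3, g4) E F b -
    (dj2.map fun τ => monomial (m4 τ.v) (τ.c : L) *
      vecJ r' r (g1, g2, g3, g4) (E + τ.x) (F + τ.y) b).sum ∈ Jr L 3 :=
  vecJ_step r' r (i := 1) (by omega) (by simp only [m4, mk4, Finsupp.single_add]; abel) E F b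

theorem vecJ_t3 (g1 g2 g3 g4 : ℕ) (E F : Q4) (b : κ) : vecJ r' r (g1, g2, g3 + 1, g4) E F b -
    (dj3.map fun τ => monomial (m4 τ.v) (τ.c : L) *
      vecJ r' r (g1, g2, g3, g4) (E + τ.x) (F + τ.y) b).sum ∈ Jr L 3 :=
  vecJ_step r' r (i := 2) (by omega) (by simp only [m4, mk4, Finsupp.single_add]; abel) E F b

theorem vecJ_t4 (g1 g2 g3 g4 : ℕ) (E F : Q4) (b : κ) : vecJ r' r (g1, g2, g3, g4 + 1) E F b -
    (dj4.map fun τ => monomial (m4 τ.v) (τ.c : L) *
      vecJ r' r (g1, g2, g3, g4) (E + τ.x) (F + τ.y) b).sum ∈ Jr L 3 :=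
  vecJ_step r' r (i := 3) (by omega) (by simp only [m4, mk4, Finsupp.single_add]; abel) E F b

/-- the initial values -/
theorem vecJ_zero (E F : Q4) (b : κ) : vecJ r' r 0 E F b =
    ∑ w, rAp (RingHom.id _) (r' w b) (monomial (m4 E) 1 * etaR 3 L (r w (m4 F))) := by
  rw [vecJ, m4_zero, monomial_zero', map_one, map_one, one_mul, Zg]
  exact Finset.sum_congr rfl fun w _ => by rw [mon2, rAp_monomial]

/-- the final values -/
theorem vecJ_conv (G : Q4) (b : κ) : vecJ r' r G 0 0 b = ∑ w, conv 3 (r' w b) (r w) (m4 G) := by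
  rw [vecJ, show mon2 L 0 0 = 1 by rw [mon2, m4_zero]; rfl, mul_one]
  rfl

theorem eta_monomial (M : ℕ →₀ ℕ) (c : L) :
    etaR 3 L (monomial M c) = C (C c) * etaR 3 L (monomial M 1) := by
  rw [← mul_one c, ← C_mul_monomial, map_mul, mul_one]
  congr 1
  exact tgt_C _ _ _ _

/-- the initial values when the lower functionals are given by lists of monomials -/
theorem rAp_eta_sum {α : Type} (s : Finset α) (M : α → ℕ →₀ ℕ) (c : α → L)
    (y : (ℕ →₀ ℕ) → AA L) (g : GG L) :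
    rAp (RingHom.id _) y (g * etaR 3 L (∑ u ∈ s, monomial (M u) (c u))) =
      ∑ u ∈ s, C (c u) * rAp (RingHom.id _) y (g * etaR 3 L (monomial (M u) 1)) := by
  rw [map_sum, Finset.mul_sum, map_sum]
  exact Finset.sum_congr rfl fun u _ => by rw [eta_monomial, mul_left_comm, rAp_C_mul]

/-- the values are homogeneous -/
theorem vecJ_mem {d : ℤ} {dm : ι → ℤ} {du : κ → ℤ} (hr : ∀ w, HomR 3 (d - dm w) (r w))
    (hr' : ∀ w b, HomR 3 (dm w - du b) (r' w b)) (G E F : Q4) (b : κ) :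
    vecJ r' r G E F b ∈ WA 3 L ((wt4 G + wt4 E + wt4 F : ℕ) + d - du b) := by
  have hw : ∀ e : Q4, Finsupp.weight (wz 3) (m4 e) = wt4 e := fun e => by
    rw [show wz 3 = fun i => (wt 3 i : ℤ) from rfl, weight_cast, wt_m4]
  have h1 : mon2 L E F ∈ ext 3 (ext 3 (WA 3 L)) ((wt4 E : ℤ) + wt4 F) :=
    monomial_mem_ext (by rw [hw, add_sub_cancel_right, ← hw]; exact monomial_one_mem _)
  have h2 := SetLike.mul_mem_graded (grPt_id.delx (monomial_one_mem (L := L) (m4 G))) h1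
  refine AddSubgroup.sum_mem _ fun w _ => ?_
  have h3 := grPt_id.rAp (hr' w b) (grPt_id.etax.rAp (hr w) h2)
  rwa [hw, show (wt4 G : ℤ) + (wt4 E + wt4 F) + (d - dm w) + (dm w - du b) =
    (wt4 G + wt4 E + wt4 F : ℕ) + d - du b by push_cast; ring] at h3

/-! ### coefficients -/

omit [Fact (Nat.Prime 3)] in
theorem coeff_of_Jr (h3 : ((3 : ℕ) : L) = 0) {k : ℕ} {a : AA L} (ha : a ∈ Jr L k) {m : ℕ →₀ ℕ}
    (hm : m 0 < k) : coeff m a = 0 := by
  classical
  rw [Jr_eq] at ha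
  obtain ⟨u, w, rfl⟩ := mem_Jk.1 ha
  rw [pow_one, ← map_natCast C, h3, map_zero, mul_zero, zero_add, X_pow_eq_monomial,
    coeff_mul_monomial', if_neg fun h => ?_]
  have h1 := h 0
  rw [Finsupp.single_eq_same] at h1
  omega

omit [Fact (Nat.Prime 3)] in
theorem mem_Jr_of_coeff {k : ℕ} {a : AA L} (h : ∀ m, m 0 < k → coeff m a = 0) : a ∈ Jr L k := by
  rw [a.as_sum]
  refine Ideal.sum_mem _ fun m hm => ?_
  have h1 : Finsupp.single 0 k ≤ m := Finsupp.single_le_iff.2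
    (not_lt.1 fun h2 => mem_support_iff.1 hm (h m h2))
  rw [← tsub_add_cancel_of_le h1, ← mul_one (coeff _ a), ← monomial_mul, ← X_pow_eq_monomial]
  exact Ideal.mul_mem_left _ _ pow_mem_Jr

omit [Fact (Nat.Prime 3)] in
/-- membership from the coefficients of the monomials in four variables -/
theorem mem_Jr_of {k n : ℕ} {a : AA L} (hn : n < 121)
    (hw : ∀ m, coeff m a ≠ 0 → Finsupp.weight (wt 3) m = n)
    (h : ∀ V : Q4, V.1 < k → wt4 V = n → coeff (m4 V) a = 0) : a ∈ Jr L k :=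
  mem_Jr_of_coeff fun m hm => by_contra fun h1 => by
    have h2 := hw m h1
    obtain ⟨e, rfl⟩ : ∃ e, m = m4 e := ⟨(m 0, m 1, m 2, m 3), eq_mk4 (by omega)⟩
    exact h1 (h e (by rwa [m4_0] at hm) (by rwa [wt_m4] at h2))

omit [Fact (Nat.Prime 3)] in
theorem coeff_terms (V : Q4) (a : DT → AA L) (l : List DT) :
    coeff (m4 V) (l.map fun τ => monomial (m4 τ.v) (τ.c : L) * a τ).sum =
      ((l.filter fun τ => le4 τ.v V).map fun τ => (τ.c : L) * coeff (m4 (V - τ.v)) (a τ)).sum := by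
  classical
  induction l with
  | nil => rfl
  | cons τ l ih =>
    rw [List.map_cons, List.sum_cons, coeff_add, ih, List.filter_cons]
    by_cases h1 : le4 τ.v V = true
    · rw [if_pos h1, List.map_cons, List.sum_cons]
      conv_lhs => rw [← sub_add_of_le4 h1, m4_add, coeff_monomial_mul, sub_add_of_le4 h1]
    · rw [if_neg h1, coeff_monomial_mul', if_neg fun h => h1 (le4_of_le h), zero_add]

section coef

variable {n : ℕ} (s' s : Fin n → (ℕ →₀ ℕ) → AA L)

/-- the values -/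
def valJ (G V E F : Q4) : L :=
  coeff (m4 V) (Zf s' s (Del 3 L (monomial (m4 G) 1) * mon2 L E F))

theorem valJ_eq (G V E F : Q4) :
    valJ s' s G V E F = coeff (m4 V) (vecJ (fun w (_ : Unit) => s' w) s G E F ()) := by
  rw [valJ, Zf_apply]
  rfl

/-- the recursion for any list which gives the diagonal of `t_(i+1)` modulo `(3, v_1 ^ k)` -/
theorem valJ_step_of (h3 : ((3 : ℕ) : L) = 0) {k i : ℕ} {l : List DT}
    (hl : ∀ F E, coeff E (coeff F (Del 3 L (X i) - (l.map (DT.ev2 L)).sum)) ∈ Jr L k) {G G' : Q4}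
    (e : m4 G' = Finsupp.single i 1 + m4 G) {V : Q4} (hV : V.1 < k) (E F : Q4) :
    valJ s' s G' V E F = ((l.filter fun τ => le4 τ.v V).map fun τ =>
      (τ.c : L) * valJ s' s G (V - τ.v) (E + τ.x) (F + τ.y)).sum := by
  have h := coeff_of_Jr h3 (vecJ_step_of (fun w (_ : Unit) => s' w) s hl e E F ())
    (m := m4 V) (by rwa [m4_0])
  rw [coeff_sub, sub_eq_zero, coeff_terms] at h
  simp only [valJ_eq]
  exact h

theorem valJ_step (h3 : ((3 : ℕ) : L) = 0) {i : ℕ} (hi : i < 4) {G G' : Q4}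
    (e : m4 G' = Finsupp.single i 1 + m4 G) {V : Q4} (hV : V.1 < 3) (E F : Q4) :
    valJ s' s G' V E F = (((dlsJ i).filter fun τ => le4 τ.v V).map fun τ =>
      (τ.c : L) * valJ s' s G (V - τ.v) (E + τ.x) (F + τ.y)).sum :=
  valJ_step_of s' s h3 ((formJ L).del i hi) e hV E F

theorem valJ_conv (G V : Q4) :
    valJ s' s G V 0 0 = coeff (m4 V) (∑ w, conv 3 (s' w) (s w) (m4 G)) := by
  rw [valJ_eq, vecJ_conv]

end coef

omit [Fact (Nat.Prime 3)] in
theorem m4_s0 (a b c d : ℕ) : m4 (a + 1, b, c, d) = Finsupp.single 0 1 + m4 (a, b, c, d) := by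
  simp only [m4, mk4, Finsupp.single_add]; abel

omit [Fact (Nat.Prime 3)] in
theorem m4_s1 (a b c d : ℕ) : m4 (a, b + 1, c, d) = Finsupp.single 1 1 + m4 (a, b, c, d) := by
  simp only [m4, mk4, Finsupp.single_add]; abel

omit [Fact (Nat.Prime 3)] in
theorem m4_s2 (a b c d : ℕ) : m4 (a, b, c + 1, d) = Finsupp.single 2 1 + m4 (a, b, c, d) := by
  simp only [m4, mk4, Finsupp.single_add]; abel

omit [Fact (Nat.Prime 3)] in
theorem m4_s3 (a b c d : ℕ) : m4 (a, b, c, d + 1) = Finsupp.single 3 1 + m4 (a, b, c, d) := by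
  simp only [m4, mk4, Finsupp.single_add]; abel

/-- the twisted values of a functional -/
def TJ (y : (ℕ →₀ ℕ) → AA L) (U V E : Q4) : L :=
  coeff (m4 V) (rAp (RingHom.id _) y (monomial (m4 E) 1 * etaR 3 L (monomial (m4 U) 1)))

theorem TJ_zero (y : (ℕ →₀ ℕ) → AA L) (V E : Q4) : TJ y 0 V E = coeff (m4 V) (y (m4 E)) := by
  rw [TJ, m4_zero, show (monomial 0 1 : AA L) = 1 from rfl, (etaR 3 L).map_one, mul_one,
    rAp_monomial, one_mul]
  rfl

/-- the recursion for any list which gives the right unit of `v_(i+1)` modulo `K` -/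
theorem rAp_eta_step (y : (ℕ →₀ ℕ) → AA L) {K : Ideal (AA L)} {i : ℕ} {l : List DT}
    (hl : ∀ E, coeff E (etaR 3 L (X i) - (l.map (DT.ev1 L)).sum) ∈ K) {U U' : Q4}
    (e : m4 U' = Finsupp.single i 1 + m4 U) (E : Q4) :
    rAp (RingHom.id _) y (monomial (m4 E) 1 * etaR 3 L (monomial (m4 U') 1)) -
      (l.map fun τ => monomial (m4 τ.v) (τ.c : L) * rAp (RingHom.id _) y
        (monomial (m4 (E + τ.x)) 1 * etaR 3 L (monomial (m4 U) 1))).sum ∈ K := by
  set D := etaR 3 L (monomial (m4 U) 1) with hD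
  have h0 : (monomial (m4 U') 1 : AA L) = X i * monomial (m4 U) 1 := by
    rw [e, X, monomial_mul, one_mul]
  have h1 : ∀ τ : DT, monomial (m4 τ.v) (τ.c : L) * rAp (RingHom.id _) y
      (monomial (m4 (E + τ.x)) 1 * D) =
        rAp (RingHom.id _) y (τ.ev1 L * (monomial (m4 E) 1 * D)) := fun τ => by
    rw [← rAp_C_mul, ← mul_assoc, ← mul_assoc, C_mul_monomial, DT.ev1, monomial_mul, m4_add,
      add_comm]
  simp only [h1]
  rw [show (l.map fun τ : DT => rAp (RingHom.id _) y (τ.ev1 L * (monomial (m4 E) 1 * D))) =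
      (l.map fun τ : DT => τ.ev1 L * (monomial (m4 E) 1 * D)).map (rAp (RingHom.id _) y) by
    rw [List.map_map]; rfl, ← map_list_sum, List.sum_map_mul_right, ← map_sub, h0, map_mul,
    mul_left_comm, ← sub_mul]
  exact rAp_mem (mem_map_C_iff.1 (Ideal.mul_mem_right _ _ (mem_map_C_iff.2 hl)))

theorem TJ_step_of (h3 : ((3 : ℕ) : L) = 0) (y : (ℕ →₀ ℕ) → AA L) {k i : ℕ} {l : List DT}
    (hl : ∀ E, coeff E (etaR 3 L (X i) - (l.map (DT.ev1 L)).sum) ∈ Jr L k) {U U' : Q4}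
    (e : m4 U' = Finsupp.single i 1 + m4 U) {V : Q4} (hV : V.1 < k) (E : Q4) :
    TJ y U' V E = ((l.filter fun τ => le4 τ.v V).map fun τ =>
      (τ.c : L) * TJ y U (V - τ.v) (E + τ.x)).sum := by
  have h := coeff_of_Jr h3 (rAp_eta_step y hl e E) (m := m4 V) (by rwa [m4_0])
  rwa [coeff_sub, sub_eq_zero, coeff_terms] at h

theorem TJ_step (h3 : ((3 : ℕ) : L) = 0) (y : (ℕ →₀ ℕ) → AA L) {i : ℕ} (hi : i < 4) {U U' : Q4}
    (e : m4 U' = Finsupp.single i 1 + m4 U) {V : Q4} (hV : V.1 < 3) (E : Q4) :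
    TJ y U' V E = (((elsJ i).filter fun τ => le4 τ.v V).map fun τ =>
      (τ.c : L) * TJ y U (V - τ.v) (E + τ.x)).sum :=
  TJ_step_of h3 y ((formJ L).eta i hi) e hV E

theorem TJ_of_le (h3 : ((3 : ℕ) : L) = 0) (y : (ℕ →₀ ℕ) → AA L) {k : ℕ} {U V : Q4}
    (hV : V.1 < k) (hU : k ≤ U.1) (E : Q4) : TJ y U V E = 0 := by
  refine coeff_of_Jr h3 (k := k) (rAp_mem (mem_map_C_iff.1 (Ideal.mul_mem_left _ _
    (inv_Jr L k (Ideal.mem_map_of_mem _ (mem_Jr_of_coeff fun m hm => ?_)))))) (by rwa [m4_0])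
  classical
  rw [coeff_monomial, if_neg]
  rintro rfl
  rw [m4_0] at hm
  omega

/-- the pairing with the right unit of a polynomial, for any finite set `S` which contains the
monomials of `a` outside of the ideal -/
theorem coeff_rAp_eta (h3 : ((3 : ℕ) : L) = 0) (y : (ℕ →₀ ℕ) → AA L) {k : ℕ} {a : AA L}
    {S : Finset Q4} (hS : ∀ m, coeff m a ≠ 0 → m 0 < k → ∃ U ∈ S, m = m4 U) {V : Q4}
    (hV : V.1 < k) (E : Q4) :
    coeff (m4 V) (rAp (RingHom.id _) y (monomial (m4 E) 1 * etaR 3 L a)) =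
      ∑ U ∈ S, coeff (m4 U) a * TJ y U V E := by
  classical
  have h1 : a - ∑ U ∈ S, monomial (m4 U) (coeff (m4 U) a) ∈ Jr L k :=
    mem_Jr_of_coeff fun m hm => by
      rw [coeff_sub, coeff_sum, sub_eq_zero]
      by_cases h : ∃ U ∈ S, m = m4 U
      · obtain ⟨U, hU, rfl⟩ := h
        rw [Finset.sum_eq_single_of_mem U hU fun U' _ h' => by
          rw [coeff_monomial, if_neg fun h2 => h' (m4_inj h2)], coeff_monomial, if_pos rfl]
      · rw [Finset.sum_eq_zero fun U hU => by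
          rw [coeff_monomial, if_neg fun h2 => h ⟨U, hU, h2.symm⟩]]
        exact by_contra fun h2 => h (hS m h2 hm)
  have h2 := coeff_of_Jr h3 (rAp_mem (x := RingHom.id _) (r := y) (mem_map_C_iff.1
    (Ideal.mul_mem_left _ (monomial (m4 E) 1) (inv_Jr L k (Ideal.mem_map_of_mem _ h1)))))
    (m := m4 V) (by rwa [m4_0])
  rw [map_sub, mul_sub, map_sub, coeff_sub, sub_eq_zero, rAp_eta_sum, coeff_sum] at h2
  rw [h2]
  exact Finset.sum_congr rfl fun U _ => coeff_C_mul _ _ _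

/-- the initial values -/
theorem valJ_zero (h3 : ((3 : ℕ) : L) = 0) {n k : ℕ} (s' s : Fin n → (ℕ →₀ ℕ) → AA L) {V : Q4}
    (hV : V.1 < k) (E F : Q4) {S : Fin n → Finset Q4}
    (hS : ∀ w m, coeff m (s w (m4 F)) ≠ 0 → m 0 < k → ∃ U ∈ S w, m = m4 U) :
    valJ s' s 0 V E F = ∑ w, ∑ U ∈ S w, coeff (m4 U) (s w (m4 F)) * TJ (s' w) U V E := by
  rw [valJ_eq, vecJ_zero, coeff_sum]
  exact Finset.sum_congr rfl fun w _ => coeff_rAp_eta h3 _ (hS w) hV E

end Vale.Agent.P236JF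

end
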