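import Vale.Agent.P236EL.Val
import Mathlib.Algebra.MvPolynomial.Division

/-!
# P236JF / Pol : polynomial arithmetic modulo `(3 ^ k, x_0 ^ r)` and the structure maps
-/

noncomputable section

namespace Vale.Agent.P236JF

open MvPolynomial Vale.Agent.P236EL

/-- reduction modulo `(3 ^ k, x_0 ^ r)` -/
def trJ (r k : ℕ) (l : Pl) : Pl :=
  List.rec (motive := fun _ => Pl) [] (fun t _ ih => frc t.2 fun m =>
    bif Nat.beq (m % 2 ^ r) 0 then ih else frc (t.1 % 3 ^ k) fun c =>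
      bif Nat.beq c 0 then ih else (c, m) :: ih) l

/-- truncated product -/
def mulJ (r k : ℕ) (l l' : Pl) : Pl :=
  trJ r k (List.rec (motive := fun _ => Pl) [] (fun t _ ih => mrg (trJ r k (sft t l')) ih) l)

/-- iterated truncated cubes, with growing precision -/
def cubJ (r : ℕ) (l : Pl) (i : ℕ) : Pl :=
  Nat.rec (motive := fun _ => Pl) l (fun i ih => mulJ r (i + 2) ih (mulJ r (i + 2) ih ih)) i

/-- equality modulo `(3 ^ k, x_0 ^ r)` -/
def eqJ (r k : ℕ) (l l' : Pl) : Bool := (trJ r k (mrg l (sft (3 ^ k - 1, 1) l'))).isEmpty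

/-- the left hand side of the logarithmic identity -/
def lhsJ (r : ℕ) (LL TL : ℕ → Pl) (n : ℕ) : Pl := sumL ((List.range (n + 1)).map fun j =>
  mulJ r (n + 1) (sft (3 ^ j, 1) (LL (n - j))) (cubJ r (TL j) (n - j)))

/-- the check for the composite of two arrows -/
def ckDJ (r : ℕ) (TL : ℕ → Pl) (n : ℕ) : Bool :=
  eqJ r (n + 1) (lhsJ r lamL TL n) (tgL (tgL lamL (kA 0)) (kA 1) n)

/-- the check for the target of an arrow -/
def ckEJ (r : ℕ) (EL : ℕ → Pl) (n : ℕ) : Bool :=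
  eqJ r (n + 1) (lhsJ r (tgL lamL (kA 0)) EL n) (tgL lamL (kA 0) (n + 1))

variable {B : Type*} [CommRing B]

/-- the ideal `(3 ^ k, a ^ r)` -/
def Jk (a : B) (r k : ℕ) : Ideal B := Ideal.span {((3 : ℕ) : B) ^ k, a ^ r}

theorem mem_Jk {a f : B} {r k : ℕ} :
    f ∈ Jk a r k ↔ ∃ u w, u * ((3 : ℕ) : B) ^ k + w * a ^ r = f := Ideal.mem_span_pair

theorem Jk.mul3 {a f : B} {r k : ℕ} (h : f ∈ Jk a r k) (j : ℕ) :
    ((3 : ℕ) : B) ^ j * f ∈ Jk a r (j + k) := by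
  obtain ⟨u, w, rfl⟩ := mem_Jk.1 h
  exact mem_Jk.2 ⟨u, ((3 : ℕ) : B) ^ j * w, by ring⟩

theorem Jk.cube {a f g : B} {r k : ℕ} (h : f - g ∈ Jk a r (k + 1)) :
    f ^ 3 - g ^ 3 ∈ Jk a r (k + 2) := by
  obtain ⟨u, w, e⟩ := mem_Jk.1 h
  obtain rfl : f = g + (u * ((3 : ℕ) : B) ^ (k + 1) + w * a ^ r) := by rw [e]; ring
  refine mem_Jk.2 ⟨g ^ 2 * u + g * u ^ 2 * 3 ^ (k + 1) + u ^ 3 * 3 ^ (2 * k + 1),
    w * (3 * (g + u * 3 ^ (k + 1)) ^ 2 + 3 * (g + u * 3 ^ (k + 1)) * (w * a ^ r) +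
      (w * a ^ r) ^ 2), ?_⟩
  push_cast
  ring

variable {x : ℕ → B} {r : ℕ}

theorem pev_trJ (k : ℕ) (l : Pl) : pev x l - pev x (trJ r k l) ∈ Jk (x 0) r k := by
  induction l with
  | nil =>
    change (0 : B) - 0 ∈ _
    rw [sub_self]
    exact zero_mem _
  | cons t l ih =>
    change _ - pev x (bif Nat.beq (t.2 % 2 ^ r) 0 then trJ r k l else
      bif Nat.beq (t.1 % 3 ^ k) 0 then trJ r k l else (t.1 % 3 ^ k, t.2) :: trJ r k l) ∈ _
    have h2 := congrArg (Nat.cast : ℕ → B) (Nat.div_add_mod t.1 (3 ^ k))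
    rw [Nat.cast_add, Nat.cast_mul, Nat.cast_pow] at h2
    obtain ⟨u, w, e⟩ := mem_Jk.1 ih
    cases h0 : Nat.beq (t.2 % 2 ^ r) 0
    · rw [cond_false]
      cases h1 : Nat.beq (t.1 % 3 ^ k) 0
      · rw [cond_false, pev_cons, pev_cons]
        exact mem_Jk.2 ⟨u + (t.1 / 3 ^ k : ℕ) * kev x t.2, w, by
          linear_combination e + kev x t.2 * h2⟩
      · rw [cond_true, pev_cons]
        rw [Nat.eq_of_beq_eq_true h1, Nat.cast_zero] at h2
        exact mem_Jk.2 ⟨u + (t.1 / 3 ^ k : ℕ) * kev x t.2, w, by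
          linear_combination e + kev x t.2 * h2⟩
    · rw [cond_true, pev_cons]
      have h3 := congrArg (kev x)
        (Nat.div_mul_cancel (Nat.dvd_of_mod_eq_zero (Nat.eq_of_beq_eq_true h0)))
      rw [kev_mul, kev_pow, show kev x 2 = x 0 from kev_pr x (i := 0) (by omega)] at h3
      exact mem_Jk.2 ⟨u, w + t.1 * kev x (t.2 / 2 ^ r), by linear_combination e + (t.1 : B) * h3⟩

/-- `f` is given by the list `l` modulo `(3 ^ k, x_0 ^ r)` -/
def Aq (x : ℕ → B) (r k : ℕ) (f : B) (l : Pl) : Prop := f - pev x l ∈ Jk (x 0) r k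

theorem aq_of_eq {k : ℕ} {f : B} {l : Pl} (e : f = pev x l) : Aq x r k f l := by
  rw [Aq, e, sub_self]
  exact zero_mem _

theorem Aq.trJ {k : ℕ} {f : B} {l : Pl} (hf : Aq x r k f l) : Aq x r k f (trJ r k l) := by
  have h1 := add_mem hf (pev_trJ (x := x) (r := r) k l)
  rwa [sub_add_sub_cancel] at h1

theorem Aq.add {k : ℕ} {f g : B} {l l' : Pl} (hf : Aq x r k f l) (hg : Aq x r k g l') :
    Aq x r k (f + g) (mrg l l') := by
  have h1 := add_mem hf hg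
  rwa [sub_add_sub_comm, ← pev_mrg] at h1

theorem Aq.sft {k : ℕ} {f : B} {l : Pl} (hf : Aq x r k f l) (t : ℕ × ℕ) :
    Aq x r k (t.1 * kev x t.2 * f) (sft t l) := by
  rw [Aq, pev_sft, ← mul_sub]
  exact Ideal.mul_mem_left _ _ hf

theorem pev_mulJ (k : ℕ) (l l' : Pl) : Aq x r k (pev x l * pev x l') (mulJ r k l l') := by
  refine Aq.trJ ?_
  induction l with
  | nil => exact aq_of_eq (zero_mul _)
  | cons t l ih =>
    rw [pev_cons, add_mul]
    exact (((aq_of_eq rfl).sft t).trJ).add ih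

theorem Aq.congr {k : ℕ} {f g : B} {l : Pl} (hf : Aq x r k f l) (e : g - f ∈ Jk (x 0) r k) :
    Aq x r k g l := by
  have h1 := add_mem e hf
  rwa [sub_add_sub_cancel] at h1

theorem Aq.cubJ {f : B} {l : Pl} (hf : Aq x r 1 f l) (i : ℕ) :
    Aq x r (i + 1) (f ^ 3 ^ i) (cubJ r l i) := by
  induction i with
  | zero => rwa [pow_zero, pow_one]
  | succ i ih =>
    rw [pow_succ, pow_mul]
    refine (pev_mulJ (i + 2) (P236JF.cubJ r l i)
      (mulJ r (i + 2) (P236JF.cubJ r l i) (P236JF.cubJ r l i))).congr ?_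
    have h1 := add_mem (Jk.cube ih) (Ideal.mul_mem_left _ (pev x (P236JF.cubJ r l i))
      (pev_mulJ (x := x) (r := r) (i + 2) (P236JF.cubJ r l i) (P236JF.cubJ r l i)))
    refine (congrArg (· ∈ Jk (x 0) r (i + 2)) ?_).mp h1
    ring

theorem sub_mem_of_eqJ {k : ℕ} {f g : B} {l l' : Pl} (hf : Aq x r k f l)
    (hg : Aq x r k g l') (e : eqJ r k l l' = true) : f - g ∈ Jk (x 0) r k := by
  have h1 := (hf.add (hg.sft (3 ^ k - 1, 1))).trJ
  rw [Aq, List.isEmpty_iff.1 e, pev_nil, sub_zero, kev_one, mul_one,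
    Nat.cast_sub (Nat.one_le_pow _ _ (by omega)), Nat.cast_pow] at h1
  obtain ⟨u, w, e⟩ := mem_Jk.1 h1
  exact mem_Jk.2 ⟨u - g, w, by rw [Nat.cast_one] at e; linear_combination e⟩

theorem aq_sum {k m : ℕ} {f : ℕ → B} {l : ℕ → Pl} (hf : ∀ i < m, Aq x r k (f i) (l i)) :
    Aq x r k (∑ i ∈ Finset.range m, f i) (sumL ((List.range m).map l)) := by
  rw [Aq, pev_sum_range, ← Finset.sum_sub_distrib]
  exact sum_mem fun i hi => hf i (Finset.mem_range.1 hi)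

theorem step_J {n : ℕ} {Λ a : ℕ → B} {LL TL : ℕ → Pl} (hΛ : ∀ i ≤ n, pev x (LL i) = Λ i)
    (h0 : Λ 0 = 1) (ih : ∀ j < n, Aq x r 1 (a j) (TL j)) {rhs : Pl} (hr : pev x rhs =
      ∑ j ∈ Finset.range (n + 1), ((3 : ℕ) : B) ^ j * Λ (n - j) * a j ^ 3 ^ (n - j))
    (e : eqJ r (n + 1) (lhsJ r LL TL n) rhs = true) :
    ((3 : ℕ) : B) ^ n * (a n - pev x (TL n)) ∈ Jk (x 0) r (n + 1) := by
  have key : ∀ j ≤ n, ∀ b, Aq x r 1 b (TL j) → Aq x r (n + 1)
      (((3 : ℕ) : B) ^ j * Λ (n - j) * b ^ 3 ^ (n - j))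
      (mulJ r (n + 1) (sft (3 ^ j, 1) (LL (n - j))) (cubJ r (TL j) (n - j))) := fun j hj b hb => by
    refine (pev_mulJ (n + 1) _ _).congr ?_
    have h1 := Ideal.mul_mem_left _ (Λ (n - j)) (Jk.mul3 (hb.cubJ (n - j)) j)
    rw [show j + (n - j + 1) = n + 1 by omega] at h1
    rw [pev_sft, hΛ _ (Nat.sub_le _ _), kev_one, mul_one, Nat.cast_pow]
    refine (congrArg (· ∈ Jk (x 0) r (n + 1)) ?_).mp h1
    ring
  have h2 := sub_mem_of_eqJ (aq_sum (f := fun j => ((3 : ℕ) : B) ^ j * Λ (n - j) *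
    (if j < n then a j else pev x (TL j)) ^ 3 ^ (n - j)) fun j hj => key j (by omega) _ (by
      split_ifs with h
      · exact ih j h
      · exact aq_of_eq rfl)) (aq_of_eq hr.symm) e
  rw [← Finset.sum_sub_distrib, Finset.sum_range_succ, Nat.sub_self, h0, pow_zero, pow_one,
    pow_one, mul_one, if_neg (lt_irrefl n), Finset.sum_eq_zero fun j hj => by
      rw [if_pos (Finset.mem_range.1 hj), sub_self]] at h2
  refine (congrArg (· ∈ Jk (x 0) r (n + 1)) ?_).mp (neg_mem h2)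
  ring

theorem cancel_Jk {σ : Type} {i : σ} {n : ℕ} {f : MvPolynomial σ ℤ}
    (h : ((3 : ℕ) : MvPolynomial σ ℤ) ^ n * f ∈ Jk (X i) r (n + 1)) : f ∈ Jk (X i) r 1 := by
  obtain ⟨u, w, e⟩ := mem_Jk.1 h
  have h1 : (X i : MvPolynomial σ ℤ) ^ r ∣ ((3 : ℕ) : MvPolynomial σ ℤ) ^ n * (f - u * (3 : ℕ)) :=
    ⟨w, by linear_combination -e⟩
  obtain ⟨c, hc⟩ := (X_prime (i := i)).pow_dvd_of_dvd_mul_left r (fun h2 => by
    have h3 := map_dvd (constantCoeff : MvPolynomial σ ℤ →+* ℤ) h2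
    rw [constantCoeff_X, map_pow, map_natCast, zero_dvd_iff] at h3
    exact absurd h3 (by positivity)) h1
  exact mem_Jk.2 ⟨u, c, by linear_combination -hc⟩

variable [hp : Fact (Nat.Prime 3)]

theorem aq_cm_univ {τ : Type} (s t : ℕ → MvPolynomial (ℕ ⊕ τ) ℤ)
    {TL : ℕ → Pl} {N : ℕ} (hN : N ≤ 4) (h : ∀ n ≤ N, ckDJ r TL n = true) (n : ℕ) (hn : n ≤ N) :
    Aq (xs (fun i => X (Sum.inl i)) s t) r 1
      (one1 (cm 3 (fun i => X (Sum.inl i)) s t) n) (TL n) := by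
  induction n using Nat.strong_induction_on with
  | _ n ih =>
    have h1 : ∀ i ≤ n, pev (xs (fun i => X (Sum.inl i)) s t) (lamL i) =
        lam 3 (fun i => X (Sum.inl i)) i := fun i hi =>
      pev_lamL (fun i hi => if_pos hi) i (by omega)
    have h2 := step_J h1 (lam_zero _ _) (fun j hj => ih j hj (by omega)) (by
      rw [pev_tgL (fun i hi => pev_tgL (fun j hj => h1 j (by omega))
        fun j hj => kev_kA0 _ s t (by omega)) fun j hj => kev_kA1 _ s t (by omega), ← tg_cm,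
        lam_tg]) (h n hn)
    rw [Aq]
    rw [xs, if_pos (by omega)] at h2 ⊢
    exact cancel_Jk h2

theorem aq_tg_univ {τ : Type} (s t : ℕ → MvPolynomial (ℕ ⊕ τ) ℤ)
    {EL : ℕ → Pl} {N : ℕ} (hN : N ≤ 4) (h : ∀ n < N, ckEJ r EL n = true) (n : ℕ) (hn : n < N) :
    Aq (xs (fun i => X (Sum.inl i)) s t) r 1 (tg 3 (fun i => X (Sum.inl i)) s n) (EL n) := by
  induction n using Nat.strong_induction_on with
  | _ n ih =>
    have h1 : ∀ i ≤ n + 1, pev (xs (fun i => X (Sum.inl i)) s t) (tgL lamL (kA 0) i) =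
        lam 3 (tg 3 (fun i => X (Sum.inl i)) s) i := fun i hi =>
      pev_tgL (fun j hj => pev_lamL (fun i hi => if_pos hi) j (by omega))
        fun j hj => kev_kA0 _ s t (by omega)
    have h2 := step_J (fun i hi => h1 i (Nat.le_succ_of_le hi)) (lam_zero _ _)
      (fun j hj => ih j hj (by omega)) (by
        rw [h1 _ le_rfl, lam_succ, ← Finset.sum_range_reflect]
        refine Finset.sum_congr rfl fun j hj => ?_
        have := Finset.mem_range.1 hj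
        rw [show n + 1 - 1 - j = n - j by omega, show n - (n - j) = j by omega]) (h n hn)
    rw [Aq]
    rw [xs, if_pos (by omega)] at h2 ⊢
    exact cancel_Jk h2

omit hp in
theorem map_Jk {C : Type*} [CommRing C] (φ : B →+* C) {a f : B} {k : ℕ} (h : f ∈ Jk a r k) :
    φ f ∈ Jk (φ a) r k := by
  obtain ⟨u, w, rfl⟩ := mem_Jk.1 h
  exact mem_Jk.2 ⟨φ u, φ w, by simp only [map_add, map_mul, map_pow, map_natCast]⟩

theorem aq_cm (v s t : ℕ → B) {TL : ℕ → Pl} {N : ℕ} (hN : N ≤ 4)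
    (h : ∀ n ≤ N, ckDJ r TL n = true) (n : ℕ) (hn : n < N) :
    cm 3 v s t n - pev (xs v s t) (TL (n + 1)) ∈ Jk (v 0) r 1 := by
  have h1 := map_Jk (ev3 v s t) (aq_cm_univ (fun i => X (Sum.inr (Sum.inl i)))
    (fun i => X (Sum.inr (Sum.inr i))) hN h (n + 1) hn)
  rw [map_sub, map_pev, map_xs, one1_succ, map_cm, xs, if_pos (by omega)] at h1
  simpa only [ev3_1, ev3_2, ev3_3] using h1

theorem aq_tg (v s t : ℕ → B) {EL : ℕ → Pl} {N : ℕ} (hN : N ≤ 4)
    (h : ∀ n < N, ckEJ r EL n = true) (n : ℕ) (hn : n < N) :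
    tg 3 v s n - pev (xs v s t) (EL n) ∈ Jk (v 0) r 1 := by
  have h1 := map_Jk (ev3 v s t) (aq_tg_univ (fun i => X (Sum.inr (Sum.inl i)))
    (fun i => X (Sum.inr (Sum.inr i))) hN h n hn)
  rw [map_sub, map_pev, map_xs, map_tg, xs, if_pos (by omega)] at h1
  simpa only [ev3_1, ev3_2, ev3_3] using h1

end Vale.Agent.P236JF

end
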