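import Vale.Agent.P236EL.Form
import Vale.Agent.P236JF.Defs
import Vale.Agent.P236JF.Pol

/-!
# P236JF / Form : the tables of `P236JF / Defs` are correct
-/

noncomputable section

namespace Vale.Agent.P236JF

open MvPolynomial Vale.Agent.P236EL Vale.Agent.P236KE

/-- the diagonals -/
def dlJ (n : ℕ) : Pl :=
  Nat.rec (motive := fun _ => Pl) [(1, 1)] (fun n _ => srt ((dlsJ n).map tm)) n

/-- the right units -/
def elJ (n : ℕ) : Pl := srt ((elsJ n).map tm)

/-- the right units, one step further -/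
def elK (n : ℕ) : Pl := srt ((elsK n).map tm)

theorem ckD_dlJ : ∀ n ≤ 4, ckDJ 3 dlJ n = true := by decide +kernel

theorem ckE_elJ : ∀ n < 4, ckEJ 3 elJ n = true := by decide +kernel

theorem ckE_elK : ∀ n < 4, ckEJ 4 elK n = true := by decide +kernel

theorem elsJ_y : ∀ n < 4, ∀ τ ∈ elsJ n, τ.y = (0, 0, 0, 0) := by decide +kernel

theorem elsK_y : ∀ n < 4, ∀ τ ∈ elsK n, τ.y = (0, 0, 0, 0) := by decide +kernel

variable {L : Type} [CommRing L] {r : ℕ}

theorem Jr_eq (L : Type) [CommRing L] (r : ℕ) : Jr L r = Jk (X 0) r 1 := by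
  rw [Jr, Jk, pow_one]

theorem map_Jk_eq {A B : Type*} [CommRing A] [CommRing B] (φ : A →+* B) (a : A) (r k : ℕ) :
    (Jk a r k).map φ = Jk (φ a) r k := by
  rw [Jk, Ideal.map_span, Set.image_pair, map_pow, map_pow, map_natCast, Jk]

theorem three_mem_Jr : ((3 : ℕ) : AA L) ∈ Jr L r := Ideal.subset_span (Set.mem_insert _ _)

theorem pow_mem_Jr : (X 0 ^ r : AA L) ∈ Jr L r :=
  Ideal.subset_span (Set.mem_insert_of_mem _ rfl)

theorem Jr_mono {r r' : ℕ} (h : r ≤ r') : Jr L r' ≤ Jr L r := by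
  rw [Jr, Ideal.span_le]
  rintro _ (rfl | rfl)
  · exact three_mem_Jr
  · exact Ideal.mem_of_dvd _ (pow_dvd_pow _ h) pow_mem_Jr

theorem Jr_le_II (hr : r ≠ 0) : Jr L r ≤ II 3 L := by
  rw [Jr, Ideal.span_le]
  rintro _ (rfl | rfl)
  · exact three_mem_II
  · exact Ideal.pow_mem_of_mem _ (X_mem_II 0) _ (Nat.pos_of_ne_zero hr)

variable [Fact (Nat.Prime 3)]

theorem del_sub_Jr {TL : ℕ → Pl} {N : ℕ} (hN : N ≤ 4)
    (h : ∀ n ≤ N, ckDJ r TL n = true) (n : ℕ) (hn : n < N) (F E : ℕ →₀ ℕ) :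
    coeff E (coeff F (Del 3 L (X n) - pev (x2 L) (TL (n + 1)))) ∈ Jr L r := by
  have h1 := aq_cm (B := MvPolynomial ℕ (GG L)) (fun i => C (C (X i))) (fun i => C (X i)) X
    hN h n hn
  rw [← map_Jk_eq C, ← map_Jk_eq C, ← Jr_eq] at h1
  rw [Del, delx_X]
  exact mem_map_C_iff.1 (mem_map_C_iff.1 h1 F) E

theorem eta_sub_Jr {EL : ℕ → Pl} {N : ℕ} (hN : N ≤ 4)
    (h : ∀ n < N, ckEJ r EL n = true) (n : ℕ) (hn : n < N) (E : ℕ →₀ ℕ) :
    coeff E (etaR 3 L (X n) - pev (x1 L) (EL n)) ∈ Jr L r := by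
  have h1 := aq_tg (B := GG L) (fun i => C (X i)) X X hN h n hn
  rw [← map_Jk_eq C, ← Jr_eq] at h1
  rw [etaR, etax, tgt_X]
  exact mem_map_C_iff.1 h1 E

theorem formJ (L : Type) [CommRing L] : FormJ L := by
  refine ⟨fun n hn F E => ?_, fun n hn E => ?_, fun n hn E => ?_⟩
  · have h := del_sub_Jr (L := L) le_rfl ckD_dlJ n hn F E
    rw [show dlJ (n + 1) = srt ((dlsJ n).map tm) from rfl, pev_srt, pev, List.map_map] at h
    rw [List.map_congr_left fun τ _ => ev2_eq τ]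
    exact h
  · have h := eta_sub_Jr (L := L) le_rfl ckE_elJ n hn E
    rw [show elJ n = srt ((elsJ n).map tm) from rfl, pev_srt, pev, List.map_map] at h
    rw [List.map_congr_left fun τ hτ => ev1_eq (elsJ_y n hn τ hτ)]
    exact h
  · have h := eta_sub_Jr (L := L) le_rfl ckE_elK n hn E
    rw [show elK n = srt ((elsK n).map tm) from rfl, pev_srt, pev, List.map_map] at h
    rw [List.map_congr_left fun τ hτ => ev1_eq (elsK_y n hn τ hτ)]
    exact h

/-- `v_1` is invariant modulo `3` -/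
theorem eta_v1 (L : Type) [CommRing L] :
    etaR 3 L (X 0) = C (X 0) + ((3 : ℕ) : GG L) * X 0 := by
  have h := lam_tg 3 (B := GG L) (fun i => C (X i)) X 1
  rw [etaR, etax, tgt_X]
  simp only [lam_succ, lam_zero, Finset.sum_range_succ, Finset.range_zero, Finset.sum_empty,
    Nat.sub_self, Nat.sub_zero, pow_zero, pow_one, mul_one, one_mul, zero_add, one1_zero,
    one1_succ, one_pow] at h
  exact h

theorem inv_Jr (L : Type) [CommRing L] (r : ℕ) : P236EL.Inv 3 (Jr L r) := by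
  rw [P236EL.Inv, Jr_eq, map_Jk_eq, map_Jk_eq, Jk, Ideal.span_le]
  rintro _ (rfl | rfl)
  · exact Ideal.subset_span (Set.mem_insert _ _)
  · obtain ⟨c, hc⟩ := sub_dvd_pow_sub_pow (etaR 3 L (X 0)) (C (X 0)) r
    refine mem_Jk.2 ⟨X 0 * c, 1, ?_⟩
    rw [eta_v1] at hc ⊢
    linear_combination -hc

end Vale.Agent.P236JF

end
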